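import Vale.Agent.P057.Disc

/-! Choice of the parameters. -/

open Finset

namespace Vale.Agent.P057

theorem grow {C ε : ℝ} (hC : 0 < C) (hε : 0 < ε) :
    ∃ R : ℝ, 1 ≤ R ∧ ∀ r, R ≤ r → C * (r + 1) ≤ 2 ^ (ε * r) := by
  have hl : 0 < Real.log 2 := Real.log_pos one_lt_two
  have ha : 0 < Real.log 2 * ε := mul_pos hl hε
  refine ⟨max 1 (4 * C / (Real.log 2 * ε) ^ 2), le_max_left _ _, fun r hr => ?_⟩
  obtain ⟨h1, h2⟩ := max_le_iff.1 hr
  rw [div_le_iff₀ (by positivity)] at h2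
  rw [Real.rpow_def_of_pos two_pos, ← mul_assoc]
  have h3 := Real.quadratic_le_exp_of_nonneg (x := Real.log 2 * ε * r) (by positivity)
  have h4 : 0 ≤ Real.log 2 * ε * r := by positivity
  have h5 := mul_le_mul_of_nonneg_right h2 (by linarith : 0 ≤ r)
  nlinarith

theorem main (c : ℝ) (hc : 2 * √(Real.logb 2 (64 / 19)) < c) :
    ∃ N₀ : ℕ, ∀ N ≥ N₀, ∃ A ⊆ Icc 1 N,
      (∀ a d : ℕ, 0 < d → ¬(a ∈ A ∧ a + d ∈ A ∧ a + 2 * d ∈ A ∧ a + 3 * d ∈ A)) ∧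
      (N : ℝ) * 2 ^ (-(c * √(Real.logb 2 N))) ≤ A.card := by
  have l0 : 1 ≤ Real.logb 2 (64 / 19) := by
    rw [Real.le_logb_iff_rpow_le one_lt_two (by norm_num)]
    norm_num
  obtain ⟨t, t1, t2⟩ := exists_between (show √(Real.logb 2 (64 / 19)) < c / 2 by linarith)
  have t3 : 1 ≤ t := (Real.one_le_sqrt.2 l0).trans t1.le
  have t4 : Real.logb 2 (64 / 19) < t ^ 2 := (Real.sqrt_lt' (by linarith)).1 t1
  have m1 : (2 : ℝ) ^ (-t ^ 2) < 19 / 64 := by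
    rw [Real.logb_lt_iff_lt_rpow one_lt_two (by norm_num)] at t4
    rw [Real.rpow_neg zero_le_two, inv_lt_comm₀ (by positivity) (by norm_num)]
    norm_num
    exact t4
  set η := min (1 / 8) (19 / 64 - (2 : ℝ) ^ (-t ^ 2)) with hη
  have η0 : 0 < η := lt_min (by norm_num) (by linarith)
  have η1 : η ≤ 1 / 8 := min_le_left _ _
  have η2 : η ≤ 19 / 64 - (2 : ℝ) ^ (-t ^ 2) := min_le_right _ _
  set K := 9 / η ^ 2 + 1 with hK
  have K1 : 1 ≤ K := le_add_of_nonneg_left (by positivity)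
  obtain ⟨R, R1, hR⟩ := grow (C := 17 * K * 2 ^ (t ^ 2)) (ε := c - 2 * t) (by positivity)
    (by linarith)
  refine ⟨⌈(2 : ℝ) ^ (R ^ 2)⌉₊, fun N hN => ?_⟩
  have N1 : (2 : ℝ) ^ (R ^ 2) ≤ N := Nat.ceil_le.1 hN
  have N0 : (0 : ℝ) < N := lt_of_lt_of_le (by positivity) N1
  have N2 : R ^ 2 ≤ Real.logb 2 N := (Real.le_logb_iff_rpow_le one_lt_two N0).2 N1
  set r := √(Real.logb 2 N) with hr
  have r1 : R ≤ r := Real.le_sqrt_of_sq_le N2
  have r2 : (N : ℝ) = 2 ^ (r ^ 2) := by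
    rw [hr, Real.sq_sqrt (le_trans (by positivity) N2), Real.rpow_logb two_pos (by norm_num) N0]
  have r0 : 0 < r := by linarith
  have t0 : 0 < t := by linarith
  set n := ⌈r / t⌉₊ with hn
  have n1 : r ≤ n * t := (div_le_iff₀ t0).1 (Nat.le_ceil _)
  have n2 : (n : ℝ) < r / t + 1 := Nat.ceil_lt_add_one (by positivity)
  have n3 : n * t ≤ r + t := by
    have := mul_lt_mul_of_pos_right n2 t0
    rw [add_mul, div_mul_cancel₀ _ t0.ne'] at this
    linarith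
  have n4 : (n : ℝ) ≤ r + 1 := by linarith [div_le_self r0.le t3]
  have q1 : (1 : ℝ) ≤ 2 ^ (t * r / 2) := Real.one_le_rpow one_le_two (by positivity)
  obtain ⟨A, hA, hA1, hA2⟩ := disc (μ := (2 : ℝ) ^ (-t ^ 2)) (q := 2 ^ (t * r / 2)) η0
    (by linarith) (by positivity) (by linarith) N n (Nat.ceil_pos.2 (by positivity)) q1 (by
      rw [r2, ← Real.rpow_mul_natCast zero_le_two]
      refine Real.rpow_le_rpow_of_exponent_le one_le_two ?_
      push_cast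
      nlinarith)
  refine ⟨A, hA, hA1, le_trans ?_ hA2⟩
  have q2 : ((2 : ℝ) ^ (t * r / 2)) ^ 2 = 2 ^ (t * r) := by
    rw [← Real.rpow_natCast, ← Real.rpow_mul zero_le_two]
    norm_num
  have q3 : (1 : ℝ) ≤ 2 ^ (t * r) := Real.one_le_rpow one_le_two (by positivity)
  have q4 : (2 : ℝ) ^ (-(t * r) - t ^ 2) ≤ (2 ^ (-t ^ 2)) ^ n := by
    rw [← Real.rpow_mul_natCast zero_le_two]
    refine Real.rpow_le_rpow_of_exponent_le one_le_two ?_
    nlinarith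
  have q5 : n * K * (16 * 2 ^ (t * r)) + 1 ≤ 17 * K * (r + 1) * 2 ^ (t * r) := by
    have h1 : n * K * 2 ^ (t * r) ≤ (r + 1) * K * 2 ^ (t * r) := by gcongr
    have h2 : 1 ≤ (r + 1) * K * 2 ^ (t * r) :=
      one_le_mul_of_one_le_of_one_le (one_le_mul_of_one_le_of_one_le (by linarith) K1) q3
    linarith
  rw [q2, ← hK, mul_div_assoc]
  refine mul_le_mul_of_nonneg_left ?_ N0.le
  rw [le_div_iff₀ (by positivity)]
  refine le_trans (mul_le_mul_of_nonneg_left q5 (by positivity)) (le_trans ?_ q4)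
  have h1 := hR r r1
  have h2 : (2 : ℝ) ^ (-(t * r) - t ^ 2) * 2 ^ (t ^ 2) =
      2 ^ (-(c * r)) * (2 ^ ((c - 2 * t) * r) * 2 ^ (t * r)) := by
    rw [← Real.rpow_add two_pos, ← Real.rpow_add two_pos, ← Real.rpow_add two_pos]
    congr 1
    ring
  refine le_of_mul_le_mul_right ?_ (show (0 : ℝ) < 2 ^ (t ^ 2) by positivity)
  rw [h2]
  calc _ = (2 : ℝ) ^ (-(c * r)) * (17 * K * 2 ^ (t ^ 2) * (r + 1) * 2 ^ (t * r)) := by ring
    _ ≤ _ := by gcongr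

end Vale.Agent.P057
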