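import Mathlib

/-! The two-dimensional block of area close to `19 / 64`. -/

namespace Vale.Agent.P057

/-- the six boxes -/
def In (η s a : ℝ) : Prop :=
  (0 < s ∧ s < 1 / 4 ∧ 1 / 4 < a ∧ a < 1 / 2) ∨ (1 / 4 < s ∧ s < 1 / 2 - η ∧ 1 / 8 < a ∧ a < 5 / 8) ∨
  (1 / 2 < s ∧ s < 5 / 8 ∧ 0 < a ∧ a < 1 / 4) ∨ (1 / 2 < s ∧ s < 5 / 8 ∧ 1 / 2 < a ∧ a < 3 / 4) ∨
  (5 / 8 < s ∧ s < 3 / 4 ∧ 0 < a ∧ a < 3 / 16) ∨ (5 / 8 < s ∧ s < 3 / 4 ∧ 9 / 16 < a ∧ a < 3 / 4)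

/-- the fibre function -/
noncomputable def gg (s a : ℝ) : ℝ :=
  if s < 1 / 2 then 2 * a ^ 2 else (if a < 1 / 2 then 2 * a else 2 * a - 1) ^ 2

variable {η s a s0 s1 s2 s3 a0 a1 a2 a3 : ℝ}

theorem In.bd (hη : 0 < η) (h : In η s a) : 0 < s ∧ s < 3 / 4 ∧ 0 < a ∧ a < 3 / 4 := by
  rcases h with h | h | h | h | h | h <;> refine ⟨?_, ?_, ?_, ?_⟩ <;> linarith [h.1, h.2.1, h.2.2.1, h.2.2.2]

theorem In.gap (hη : η < 1 / 4) (h : In η s a) : s < 1 / 2 - η ∨ 1 / 2 < s := by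
  rcases h with h | h | h | h | h | h
  exacts [.inl (by linarith [h.2.1]), .inl h.2.1, .inr h.1, .inr h.1, .inr (by linarith [h.1]),
    .inr (by linarith [h.1])]

theorem In.low (h : In η s a) (hs : s < 1 / 2) : 1 / 8 < a ∧ a < 5 / 8 := by
  rcases h with h | h | h | h | h | h <;> refine ⟨?_, ?_⟩ <;> linarith [h.1, h.2.1, h.2.2.1, h.2.2.2]

theorem In.high (hη : 0 < η) (h : In η s a) (hs : 1 / 2 < s) : ∃ (m : ℤ) (b : ℝ), b = 2 * a - m ∧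
    0 < b ∧ b < 1 / 2 ∧ gg s a = b ^ 2 := by
  have h1 : (0 < a ∧ a < 1 / 4) ∨ (1 / 2 < a ∧ a < 3 / 4) := by
    rcases h with h | h | h | h | h | h
    · linarith [h.2.1]
    · linarith [h.2.1]
    exacts [.inl h.2.2, .inr h.2.2, .inl ⟨h.2.2.1, by linarith [h.2.2.2]⟩,
      .inr ⟨by linarith [h.2.2.1], h.2.2.2⟩]
  rcases h1 with h1 | h1
  · exact ⟨0, _, rfl, by simpa using h1.1, by push_cast; linarith [h1.2], by
      rw [gg, if_neg (by linarith), if_pos (by linarith [h1.2])]; simp⟩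
  · exact ⟨1, _, rfl, by push_cast; linarith [h1.1], by push_cast; linarith [h1.2], by
      rw [gg, if_neg (by linarith), if_neg (by linarith [h1.1])]; simp⟩

theorem In.gg_bd (hη : 0 < η) (hη' : η < 1 / 4) (h : In η s a) : 0 ≤ gg s a ∧ gg s a ≤ 1 := by
  rcases h.gap hη' with h1 | h1
  · obtain ⟨h2, h3⟩ := h.low (by linarith)
    rw [gg, if_pos (by linarith)]
    constructor <;> nlinarith
  · obtain ⟨m, b, -, h2, h3, h4⟩ := h.high hη h1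
    rw [h4]
    constructor <;> nlinarith

theorem int3 {k : ℤ} (h1 : (-2 : ℝ) < k) (h2 : (k : ℝ) < 2) : k = -1 ∨ k = 0 ∨ k = 1 := by
  have h3 : (-2 : ℤ) < k := by exact_mod_cast h1
  have h4 : k < 2 := by exact_mod_cast h2
  omega

theorem int1 {k : ℤ} (h1 : (-1 : ℝ) < k) (h2 : (k : ℝ) < 1) : k = 0 := by
  have h3 : (-1 : ℤ) < k := by exact_mod_cast h1
  have h4 : k < 1 := by exact_mod_cast h2
  omega

theorem nint {k : ℤ} (m : ℤ) (h1 : (m : ℝ) < k) (h2 : (k : ℝ) < m + 1) : False := by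
  have h3 : m < k := by exact_mod_cast h1
  have h4 : k < m + 1 := by exact_mod_cast h2
  omega

theorem In.zP (h : In η s a) (hs : s ≤ 1 / 4) : 1 / 4 < a ∧ a < 1 / 2 := by
  rcases h with h | h | h | h | h | h <;> refine ⟨?_, ?_⟩ <;> linarith [h.1, h.2.1, h.2.2.1, h.2.2.2]

theorem In.zQ (hη : 0 < η) (h : In η s a) (hs : 1 / 2 ≤ s) :
    (0 < a ∧ a < 1 / 4) ∨ (1 / 2 < a ∧ a < 3 / 4) := by
  rcases h with h | h | h | h | h | h
  · linarith [h.2.1]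
  · linarith [h.2.1]
  exacts [.inl h.2.2, .inr h.2.2, .inl ⟨h.2.2.1, by linarith [h.2.2.2]⟩,
    .inr ⟨by linarith [h.2.2.1], h.2.2.2⟩]

theorem In.zQ' (hη : 0 < η) (h : In η s a) (hs : 5 / 8 ≤ s) :
    (0 < a ∧ a < 3 / 16) ∨ (9 / 16 < a ∧ a < 3 / 4) := by
  rcases h with h | h | h | h | h | h
  · linarith [h.2.1]
  · linarith [h.2.1]
  · linarith [h.2.1]
  · linarith [h.2.1]
  exacts [.inl h.2.2, .inr h.2.2]

theorem excl (hη : 0 < η) (h0 : In η s0 a0) (h1 : In η s1 a1) (h2 : In η s2 a2) (h3 : In η s3 a3)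
    (e1 : s0 + s2 - 2 * s1 = -1) (e2 : s1 + s3 - 2 * s2 = 0 ∨ s1 + s3 - 2 * s2 = 1) {k1 k2 : ℤ}
    (f1 : a0 + a2 - 2 * a1 = k1) (f2 : a1 + a3 - 2 * a2 = k2) : False := by
  obtain ⟨p0, -, q0, r0⟩ := h0.bd hη
  obtain ⟨-, p1, q1, r1⟩ := h1.bd hη
  obtain ⟨p2, -, q2, r2⟩ := h2.bd hη
  obtain ⟨p3, p4, q3, r3⟩ := h3.bd hη
  rcases e2 with e2 | e2
  · obtain ⟨u0, v0⟩ := h0.zP (by linarith)
    obtain ⟨u3, v3⟩ := h3.zP (by linarith)
    obtain ⟨u2, v2⟩ := h2.low (by linarith)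
    rcases h1.zQ' hη (by linarith) with ⟨u1, v1⟩ | ⟨u1, v1⟩
    · rcases int3 (k := k1) (by linarith) (by linarith) with rfl | rfl | rfl <;> push_cast at f1
      · linarith
      · linarith
      · exact nint (k := k2) (-1) (by push_cast; linarith) (by push_cast; linarith)
    · rcases int3 (k := k1) (by linarith) (by linarith) with rfl | rfl | rfl <;> push_cast at f1
      · exact nint (k := k2) 0 (by push_cast; linarith) (by push_cast; linarith)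
      · linarith
      · linarith
  · obtain ⟨u2, v2⟩ := h2.zP (by linarith)
    rcases le_total s0 (1 / 4) with t | t
    · obtain ⟨u0, v0⟩ := h0.zP t
      rcases h1.zQ hη (by linarith) with ⟨u1, v1⟩ | ⟨u1, v1⟩
      · exact nint (k := k1) 0 (by push_cast; linarith) (by push_cast; linarith)
      · exact nint (k := k1) (-1) (by push_cast; linarith) (by push_cast; linarith)
    · obtain ⟨u0, v0⟩ := h0.low (by linarith)
      rcases h1.zQ' hη (by linarith) with ⟨u1, v1⟩ | ⟨u1, v1⟩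
      · rcases int3 (k := k1) (by linarith) (by linarith) with rfl | rfl | rfl <;> push_cast at f1
        · linarith
        · linarith
        · exact nint (k := k2) (-1) (by push_cast; linarith) (by push_cast; linarith)
      · rcases int3 (k := k1) (by linarith) (by linarith) with rfl | rfl | rfl <;> push_cast at f1
        · exact nint (k := k2) 0 (by push_cast; linarith) (by push_cast; linarith)
        · linarith
        · linarith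

theorem wrap (hη : 0 < η) (h1 : In η s1 a1) (h3 : In η s3 a3)
    (e1 : s0 + s2 - 2 * s1 = 1) (e2 : s1 + s3 - 2 * s2 = 0) :
    1 / 4 ≤ s0 ^ 2 + s3 ^ 2 - s1 ^ 2 - s2 ^ 2 := by
  obtain ⟨p1, -⟩ := h1.bd hη
  obtain ⟨-, p3, -⟩ := h3.bd hη
  have h : s0 ^ 2 + s3 ^ 2 - s1 ^ 2 - s2 ^ 2 = 4 * (s1 - s0 + 1) ^ 2 + 2 * s0 - 1 := by
    rw [show s3 = 3 * s1 - 2 * s0 + 2 by linarith, show s2 = 2 * s1 - s0 + 1 by linarith]
    ring
  have := sq_nonneg (s1 - s0 + 1)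
  linarith

/-- the block function -/
noncomputable def ff (η s a : ℝ) : ℝ := 9 / η ^ 2 * s ^ 2 + gg s a

theorem In.ff_bd (hη : 0 < η) (hη' : η < 1 / 4) (h : In η s a) :
    0 ≤ ff η s a ∧ ff η s a ≤ 9 / η ^ 2 + 1 := by
  obtain ⟨g1, g2⟩ := h.gg_bd hη hη'
  obtain ⟨p1, p2, -⟩ := h.bd hη
  have hW : 0 < 9 / η ^ 2 := by positivity
  have h2 : s ^ 2 ≤ 1 := by nlinarith
  have := mul_le_of_le_one_right hW.le h2
  refine ⟨by unfold ff; positivity, ?_⟩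
  unfold ff
  linarith

theorem flat (hη : 0 < η) (hη' : η < 1 / 4) (h0 : In η s0 a0) (h1 : In η s1 a1)
    (h2 : In η s2 a2) (h3 : In η s3 a3) {k1 k2 : ℤ}
    (d1 : s0 + s2 - 2 * s1 = 0) (d2 : s1 + s3 - 2 * s2 = 0)
    (f1 : a0 + a2 - 2 * a1 = k1) (f2 : a1 + a3 - 2 * a2 = k2) {W : ℝ} (hW : 16 ≤ W)
    (hW2 : W * η ^ 2 = 9) :
    2 ≤ W * (s0 ^ 2 + s3 ^ 2 - s1 ^ 2 - s2 ^ 2) + (gg s0 a0 + gg s3 a3 - gg s1 a1 - gg s2 a2) ∨
      ∃ m1 m2 : ℤ, 2 * (2 * (s1 - s0) - m1) ^ 2 ≤ W * (s0 ^ 2 + s3 ^ 2 - s1 ^ 2 - s2 ^ 2) +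
        (gg s0 a0 + gg s3 a3 - gg s1 a1 - gg s2 a2) ∧
      2 * (2 * (a1 - a0) - m2) ^ 2 ≤ W * (s0 ^ 2 + s3 ^ 2 - s1 ^ 2 - s2 ^ 2) +
        (gg s0 a0 + gg s3 a3 - gg s1 a1 - gg s2 a2) := by
  obtain ⟨g0, -⟩ := h0.gg_bd hη hη'
  obtain ⟨-, g1⟩ := h1.gg_bd hη hη'
  obtain ⟨-, g2⟩ := h2.gg_bd hη hη'
  obtain ⟨g3, -⟩ := h3.gg_bd hη hη'
  have hb : s0 ^ 2 + s3 ^ 2 - s1 ^ 2 - s2 ^ 2 = 4 * (s1 - s0) ^ 2 := by
    rw [show s3 = 3 * s1 - 2 * s0 by linarith, show s2 = 2 * s1 - s0 by linarith]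
    ring
  rw [hb]
  have hd := sq_nonneg (s1 - s0)
  have hd2 : 8 * (s1 - s0) ^ 2 ≤ W * (4 * (s1 - s0) ^ 2) := by nlinarith
  have far : η ^ 2 ≤ 9 * (s1 - s0) ^ 2 → 4 ≤ W * (4 * (s1 - s0) ^ 2) := fun h => by nlinarith
  rcases h0.gap hη' with t0 | t0 <;> rcases h3.gap hη' with t3 | t3
  · obtain ⟨u0, v0⟩ := h0.low (by linarith)
    obtain ⟨u1, v1⟩ := h1.low (by linarith)
    obtain ⟨u2, v2⟩ := h2.low (by linarith)
    obtain ⟨u3, v3⟩ := h3.low (by linarith)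
    obtain rfl := int1 (k := k1) (by linarith) (by linarith)
    obtain rfl := int1 (k := k2) (by linarith) (by linarith)
    push_cast at f1 f2
    have hg : gg s0 a0 + gg s3 a3 - gg s1 a1 - gg s2 a2 = 8 * (a1 - a0) ^ 2 := by
      rw [gg, gg, gg, gg, if_pos (by linarith), if_pos (by linarith), if_pos (by linarith),
        if_pos (by linarith), show a3 = 3 * a1 - 2 * a0 by linarith,
        show a2 = 2 * a1 - a0 by linarith]
      ring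
    rw [hg]
    have := sq_nonneg (a1 - a0)
    exact .inr ⟨0, 0, by push_cast; linarith, by push_cast; linarith⟩
  · exact .inl (by linarith [far (by nlinarith)])
  · exact .inl (by linarith [far (by nlinarith)])
  · obtain ⟨m0, b0, c0, u0, v0, w0⟩ := h0.high hη t0
    obtain ⟨m1, b1, c1, u1, v1, w1⟩ := h1.high hη (by linarith)
    obtain ⟨m2, b2, c2, u2, v2, w2⟩ := h2.high hη (by linarith)
    obtain ⟨m3, b3, c3, u3, v3, w3⟩ := h3.high hη t3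
    have j1 := int1 (k := 2 * k1 - m0 - m2 + 2 * m1) (by push_cast; linarith)
      (by push_cast; linarith)
    have j2 := int1 (k := 2 * k2 - m1 - m3 + 2 * m2) (by push_cast; linarith)
      (by push_cast; linarith)
    have j3 : (2 * k1 - m0 - m2 + 2 * m1 : ℝ) = 0 := by exact_mod_cast j1
    have j4 : (2 * k2 - m1 - m3 + 2 * m2 : ℝ) = 0 := by exact_mod_cast j2
    have hg : gg s0 a0 + gg s3 a3 - gg s1 a1 - gg s2 a2 = 4 * (b1 - b0) ^ 2 := by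
      rw [w0, w1, w2, w3, show b3 = 3 * b1 - 2 * b0 by linarith,
        show b2 = 2 * b1 - b0 by linarith]
      ring
    rw [hg]
    have := sq_nonneg (b1 - b0)
    refine .inr ⟨0, m1 - m0, by push_cast; linarith, ?_⟩
    rw [show 2 * (a1 - a0) - ((m1 - m0 : ℤ) : ℝ) = b1 - b0 by push_cast; linarith]
    linarith

theorem block (hη : 0 < η) (hη' : η < 1 / 4) (h0 : In η s0 a0) (h1 : In η s1 a1)
    (h2 : In η s2 a2) (h3 : In η s3 a3) {e1 e2 k1 k2 : ℤ}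
    (d1 : s0 + s2 - 2 * s1 = e1) (d2 : s1 + s3 - 2 * s2 = e2)
    (f1 : a0 + a2 - 2 * a1 = k1) (f2 : a1 + a3 - 2 * a2 = k2) :
    2 ≤ ff η s0 a0 + ff η s3 a3 - ff η s1 a1 - ff η s2 a2 ∨ ∃ m1 m2 : ℤ,
      2 * (2 * (s1 - s0) - m1) ^ 2 ≤ ff η s0 a0 + ff η s3 a3 - ff η s1 a1 - ff η s2 a2 ∧
      2 * (2 * (a1 - a0) - m2) ^ 2 ≤ ff η s0 a0 + ff η s3 a3 - ff η s1 a1 - ff η s2 a2 := by
  obtain ⟨p0, q0, -⟩ := h0.bd hη
  obtain ⟨p1, q1, -⟩ := h1.bd hη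
  obtain ⟨p2, q2, -⟩ := h2.bd hη
  obtain ⟨p3, q3, -⟩ := h3.bd hη
  obtain ⟨g0, -⟩ := h0.gg_bd hη hη'
  obtain ⟨-, g1⟩ := h1.gg_bd hη hη'
  obtain ⟨-, g2⟩ := h2.gg_bd hη hη'
  obtain ⟨g3, -⟩ := h3.gg_bd hη hη'
  have hL : ff η s0 a0 + ff η s3 a3 - ff η s1 a1 - ff η s2 a2 =
      9 / η ^ 2 * (s0 ^ 2 + s3 ^ 2 - s1 ^ 2 - s2 ^ 2) +
        (gg s0 a0 + gg s3 a3 - gg s1 a1 - gg s2 a2) := by unfold ff; ring
  rw [hL]
  have hW : 16 ≤ 9 / η ^ 2 := by rw [le_div_iff₀ (by positivity)]; nlinarith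
  have hW2 : 9 / η ^ 2 * η ^ 2 = 9 := by field_simp
  set W := 9 / η ^ 2
  rcases int3 (k := e1) (by linarith) (by linarith) with rfl | rfl | rfl <;>
  rcases int3 (k := e2) (by linarith) (by linarith) with rfl | rfl | rfl <;> push_cast at d1 d2
  · linarith
  · exact (excl hη h0 h1 h2 h3 d1 (.inl d2) f1 f2).elim
  · exact (excl hη h0 h1 h2 h3 d1 (.inr d2) f1 f2).elim
  · exact (excl hη h3 h2 h1 h0 (by linarith) (.inl (by linarith)) (k1 := k2) (k2 := k1)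
      (by linarith) (by linarith)).elim
  · exact flat hη hη' h0 h1 h2 h3 d1 d2 f1 f2 hW hW2
  · have := wrap (s0 := s3) (s2 := s1) hη h2 h0 (by linarith) (by linarith)
    exact .inl (by nlinarith)
  · exact (excl hη h3 h2 h1 h0 (by linarith) (.inr (by linarith)) (k1 := k2) (k2 := k1)
      (by linarith) (by linarith)).elim
  · have := wrap hη h1 h3 d1 d2
    exact .inl (by nlinarith)
  · linarith

end Vale.Agent.P057
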