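import Vale.Agent.P057.Glue
import Vale.Agent.P057.Block

/-! The block on the grid `ZMod p × ZMod p`. -/

open Finset

namespace Vale.Agent.P057

variable {p : ℕ} [NeZero p]

open Classical in
/-- grid points in a region -/
noncomputable def grid (p : ℕ) [NeZero p] (P : ℝ → ℝ → Prop) : Finset (ZMod p × ZMod p) :=
  univ.filter fun x => P (x.1.val / p) (x.2.val / p)

theorem mem_grid {P : ℝ → ℝ → Prop} {x : ZMod p × ZMod p} :
    x ∈ grid p P ↔ P (x.1.val / p) (x.2.val / p) := by simp [grid]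

theorem grid_or {P Q : ℝ → ℝ → Prop} (h : ∀ s a, P s a → Q s a → False) :
    ((grid p fun s a => P s a ∨ Q s a).card : ℝ) = (grid p P).card + (grid p Q).card := by
  rw [← Nat.cast_add, ← card_union_of_disjoint (s := grid p P) (t := grid p Q)
    (disjoint_left.2 fun x h1 h2 => h _ _ (mem_grid.1 h1) (mem_grid.1 h2))]
  congr 2
  ext x
  simp only [mem_grid, mem_union]

theorem line {α β : ℝ} (h0 : 0 ≤ α) (h1 : β ≤ 1) :
    (β - α) * p ≤ (univ.filter fun x : ZMod p => α < (x.val : ℝ) / p ∧ (x.val : ℝ) / p < β).card + 1 := by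
  have hp : (0 : ℝ) < p := by exact_mod_cast NeZero.pos p
  have h2 : ∀ n ∈ Ioo ⌊α * p⌋₊ ⌈β * p⌉₊, α * p < n ∧ (n : ℝ) < β * p ∧ n < p := fun n hn => by
    obtain ⟨h3, h4⟩ := mem_Ioo.1 hn
    have h5 := Nat.lt_ceil.1 h4
    refine ⟨(Nat.floor_lt (by positivity)).1 h3, h5, ?_⟩
    have : (n : ℝ) < p := by nlinarith
    exact_mod_cast this
  have h3 := card_le_card_of_injOn (s := Ioo ⌊α * p⌋₊ ⌈β * p⌉₊)
    (t := univ.filter fun x : ZMod p => α < (x.val : ℝ) / p ∧ (x.val : ℝ) / p < β)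
    (fun n => (n : ZMod p)) (fun n hn => by
      obtain ⟨h4, h5, h6⟩ := h2 n hn
      refine mem_filter.2 ⟨mem_univ _, ?_⟩
      rw [ZMod.val_cast_of_lt h6, lt_div_iff₀ hp, div_lt_iff₀ hp]
      exact ⟨h4, h5⟩)
    fun n hn m hm h => by
      have := congrArg ZMod.val h
      rwa [ZMod.val_cast_of_lt (h2 n hn).2.2, ZMod.val_cast_of_lt (h2 m hm).2.2] at this
  rw [Nat.card_Ioo] at h3
  have h4 : ⌈β * p⌉₊ ≤ (univ.filter fun x : ZMod p =>
    α < (x.val : ℝ) / p ∧ (x.val : ℝ) / p < β).card + 1 + ⌊α * p⌋₊ := by omega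
  have h5 : (⌈β * p⌉₊ : ℝ) ≤ (univ.filter fun x : ZMod p =>
    α < (x.val : ℝ) / p ∧ (x.val : ℝ) / p < β).card + 1 + ⌊α * p⌋₊ := by exact_mod_cast h4
  have h6 := Nat.le_ceil (β * p)
  have h7 := Nat.floor_le (a := α * p) (by positivity)
  linarith

theorem grid_box {α β γ δ : ℝ} (h0 : 0 ≤ α) (h1 : β ≤ 1) (h2 : 0 ≤ γ) (h3 : δ ≤ 1)
    (h5 : γ ≤ δ) : (β - α) * (δ - γ) * p ^ 2 - 3 * p ≤
      (grid p fun s a => α < s ∧ s < β ∧ γ < a ∧ a < δ).card := by
  have hp : (1 : ℝ) ≤ p := by exact_mod_cast NeZero.pos p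
  have k1 := line (p := p) h0 h1
  have k2 := line (p := p) h2 h3
  have k3 : (grid p fun s a => α < s ∧ s < β ∧ γ < a ∧ a < δ) =
      (univ.filter fun x : ZMod p => α < (x.val : ℝ) / p ∧ (x.val : ℝ) / p < β) ×ˢ
        (univ.filter fun x : ZMod p => γ < (x.val : ℝ) / p ∧ (x.val : ℝ) / p < δ) := by
    ext x
    simp only [grid, mem_filter, mem_univ, true_and, mem_product, and_assoc]
  have k4 : ∀ s : Finset (ZMod p), (s.card : ℝ) ≤ p := fun s => by
    have := card_le_univ s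
    rw [ZMod.card] at this
    exact_mod_cast this
  rw [k3, card_product, Nat.cast_mul]
  have k5 := mul_le_mul k1 k2 (mul_nonneg (by linarith) (by linarith)) (by positivity)
  have k6 := k4 (univ.filter fun x : ZMod p => α < (x.val : ℝ) / p ∧ (x.val : ℝ) / p < β)
  have k7 := k4 (univ.filter fun x : ZMod p => γ < (x.val : ℝ) / p ∧ (x.val : ℝ) / p < δ)
  linarith

theorem grid_In {η : ℝ} (hη : 0 < η) (hη' : η < 1 / 4) :
    (19 / 64 - η / 2) * p ^ 2 - 18 * p ≤ (grid p (In η)).card := by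
  have b1 := grid_box (p := p) (α := 0) (β := 1 / 4) (γ := 1 / 4) (δ := 1 / 2) (by norm_num)
    (by norm_num) (by norm_num) (by norm_num) (by norm_num)
  have b2 := grid_box (p := p) (α := 1 / 4) (β := 1 / 2 - η) (γ := 1 / 8) (δ := 5 / 8) (by norm_num)
    (by linarith) (by norm_num) (by norm_num) (by norm_num)
  have b3 := grid_box (p := p) (α := 1 / 2) (β := 5 / 8) (γ := 0) (δ := 1 / 4) (by norm_num)
    (by norm_num) (by norm_num) (by norm_num) (by norm_num)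
  have b4 := grid_box (p := p) (α := 1 / 2) (β := 5 / 8) (γ := 1 / 2) (δ := 3 / 4) (by norm_num)
    (by norm_num) (by norm_num) (by norm_num) (by norm_num)
  have b5 := grid_box (p := p) (α := 5 / 8) (β := 3 / 4) (γ := 0) (δ := 3 / 16) (by norm_num)
    (by norm_num) (by norm_num) (by norm_num) (by norm_num)
  have b6 := grid_box (p := p) (α := 5 / 8) (β := 3 / 4) (γ := 9 / 16) (δ := 3 / 4) (by norm_num)
    (by norm_num) (by norm_num) (by norm_num) (by norm_num)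
  unfold In
  rw [grid_or, grid_or, grid_or, grid_or, grid_or]
  · linarith
  · exact fun s a h k => by linarith [h.2.2.2, k.2.2.1]
  · rintro s a h (k | k) <;> linarith [h.2.1, k.1]
  · rintro s a h (k | k | k) <;> linarith [h.2.1, k.1, h.2.2.2, k.2.2.1]
  · rintro s a h (k | k | k | k) <;> linarith [h.2.1, k.1]
  · rintro s a h (k | k | k | k | k) <;> linarith [h.2.1, k.1]

theorem rel {u v t : ZMod p} (h : u + t = 2 * v) :
    ∃ e : ℤ, (u.val : ℝ) / p + t.val / p - 2 * (v.val / p) = e := by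
  have hp : (0 : ℝ) < p := by exact_mod_cast NeZero.pos p
  obtain ⟨e, he⟩ := (ZMod.intCast_zmod_eq_zero_iff_dvd ((u.val : ℤ) + t.val - 2 * v.val) p).1 (by
    simp [h])
  have h2 : (u.val : ℝ) + t.val - 2 * v.val = p * e := by exact_mod_cast he
  refine ⟨e, ?_⟩
  field_simp
  linarith

/-- residues of small integers -/
noncomputable def sml (p : ℕ) (δ : ℝ) : Finset (ZMod p) :=
  (Ioo (-⌈δ * p⌉) ⌈δ * p⌉).image (Int.cast : ℤ → ZMod p)

theorem sml_card {δ : ℝ} (hδ : 0 < δ) : ((sml p δ).card : ℝ) ≤ 2 * δ * p + 1 := by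
  have hp : (0 : ℝ) < p := by exact_mod_cast NeZero.pos p
  have h1 : (sml p δ).card ≤ _ := card_image_le
  have h2 : 0 < ⌈δ * p⌉ := Int.ceil_pos.2 (by positivity)
  rw [Int.card_Ioo] at h1
  have h3 : ((sml p δ).card : ℤ) ≤ 2 * ⌈δ * p⌉ - 1 := by omega
  have h4 : ((sml p δ).card : ℝ) ≤ 2 * ⌈δ * p⌉ - 1 := by exact_mod_cast h3
  have := Int.ceil_lt_add_one (δ * p)
  linarith

theorem mem_sml {δ : ℝ} (hδ : 0 < δ) {u v : ZMod p} {m : ℤ}
    (h : (2 * ((v.val : ℝ) / p - u.val / p) - m) ^ 2 < δ ^ 2) : 2 * (v - u) ∈ sml p δ := by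
  have hp : (0 : ℝ) < p := by exact_mod_cast NeZero.pos p
  obtain ⟨h1, h2⟩ := abs_lt.1 (abs_lt_of_sq_lt_sq h hδ.le)
  have h3 : ((2 * ((v.val : ℤ) - u.val) - m * p : ℤ) : ℝ) =
      (2 * ((v.val : ℝ) / p - u.val / p) - m) * p := by
    push_cast
    field_simp
  refine mem_image.2 ⟨2 * ((v.val : ℤ) - u.val) - m * p, mem_Ioo.2 ⟨?_, ?_⟩, by simp⟩
  · rw [neg_lt, Int.lt_ceil, Int.cast_neg, h3]
    nlinarith
  · rw [Int.lt_ceil, h3]
    nlinarith

theorem disc {η μ q : ℝ} (hη : 0 < η) (hη' : η < 1 / 4) (hμ0 : 0 ≤ μ) (hμ : μ < 19 / 64 - η / 2)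
    (N n : ℕ) (hn : 0 < n) (hq : 1 ≤ q) (hN : N ≤ q ^ (2 * n)) :
    ∃ A ⊆ Icc 1 N, (∀ a d : ℕ, 0 < d → ¬(a ∈ A ∧ a + d ∈ A ∧ a + 2 * d ∈ A ∧ a + 3 * d ∈ A)) ∧
      N * μ ^ n / (n * (9 / η ^ 2 + 1) * (16 * q ^ 2) + 1) ≤ A.card := by
  obtain ⟨p, hp, hpp⟩ := Nat.exists_infinite_primes
    (2 * N + ⌈2 * q⌉₊ + ⌈18 / (19 / 64 - η / 2 - μ)⌉₊ + 1)
  have := Fact.mk hpp
  have hp0 : (0 : ℝ) < p := by exact_mod_cast hpp.pos
  have hp1 : 2 * q < p := lt_of_le_of_lt (Nat.le_ceil _) (by exact_mod_cast (by omega))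
  have hp2 : 18 / (19 / 64 - η / 2 - μ) ≤ p := Nat.ceil_le.1 (by omega)
  have hδ : 0 < 1 / (4 * q) := by positivity
  obtain ⟨A, hA, hA1, hA2⟩ := glue (grid p (In η)) (sml p (1 / (4 * q)) ×ˢ sml p (1 / (4 * q)))
    (fun x => ff η (x.1.val / p) (x.2.val / p)) (9 / η ^ 2 + 1) ((1 / (4 * q)) ^ 2) (by positivity)
    (fun x hx => In.ff_bd hη hη' (mem_grid.1 hx)) (fun x d h0 h1 h2 h3 => by
      obtain ⟨e1, d1⟩ := rel (u := x.1) (v := (x + d).1) (t := (x + 2 • d).1) (by simp; ring)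
      obtain ⟨e2, d2⟩ := rel (u := (x + d).1) (v := (x + 2 • d).1) (t := (x + 3 • d).1)
        (by simp; ring)
      obtain ⟨k1, f1⟩ := rel (u := x.2) (v := (x + d).2) (t := (x + 2 • d).2) (by simp; ring)
      obtain ⟨k2, f2⟩ := rel (u := (x + d).2) (v := (x + 2 • d).2) (t := (x + 3 • d).2)
        (by simp; ring)
      rcases block hη hη' (mem_grid.1 h0) (mem_grid.1 h1) (mem_grid.1 h2)
        (mem_grid.1 h3) d1 d2 f1 f2 with h | ⟨m1, m2, g1, g2⟩
      · have : (1 / (4 * q)) ^ 2 ≤ 1 := pow_le_one₀ hδ.le ((div_le_one (by positivity)).2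
          (by linarith))
        exact ⟨by linarith, fun _ => by linarith⟩
      · refine ⟨le_trans (by positivity) g1, fun h => ?_⟩
        by_contra hc
        push Not at hc
        refine h (mem_product.2 ⟨?_, ?_⟩)
        · simpa using mem_sml hδ (u := x.1) (v := (x + d).1) (m := m1) (by linarith)
        · simpa using mem_sml hδ (u := x.2) (v := (x + d).2) (m := m2) (by linarith))
    N n (fun d hd x y h => by
      obtain ⟨h1, h2⟩ := mem_Icc.1 hd
      have h3 : ((2 * d : ℕ) : ZMod p) ≠ 0 := fun h4 => by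
        have := Nat.le_of_dvd (by omega) ((ZMod.natCast_eq_zero_iff _ _).1 h4)
        omega
      obtain ⟨h4, h5⟩ := Prod.ext_iff.1 h
      rw [Prod.smul_fst, Prod.smul_fst, nsmul_eq_mul, nsmul_eq_mul] at h4
      rw [Prod.smul_snd, Prod.smul_snd, nsmul_eq_mul, nsmul_eq_mul] at h5
      exact Prod.ext (mul_left_cancel₀ h3 h4) (mul_left_cancel₀ h3 h5))
    (by
      have h1 := sml_card (p := p) hδ
      have h2 : q * (sml p (1 / (4 * q))).card < p := by
        have : q * (2 * (1 / (4 * q)) * p + 1) = p / 2 + q := by field_simp; ring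
        nlinarith
      have h3 := pow_lt_pow_left₀ h2 (by positivity) (n := 2 * n) (by omega)
      have h4 : (N : ℝ) * ((sml p (1 / (4 * q))).card : ℝ) ^ (2 * n) < p ^ (2 * n) := by
        rw [mul_pow] at h3
        exact lt_of_le_of_lt (by gcongr) h3
      rw [card_product, Fintype.card_prod, ZMod.card, ← sq, ← sq, ← pow_mul, ← pow_mul]
      exact_mod_cast h4) (by positivity)
  refine ⟨A, hA, hA1, le_trans ?_ hA2⟩
  have h1 : μ ≤ ((grid p (In η)).card : ℝ) / Fintype.card (ZMod p × ZMod p) := by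
    have h2 := grid_In (p := p) hη hη'
    rw [div_le_iff₀ (by linarith)] at hp2
    rw [Fintype.card_prod, ZMod.card, Nat.cast_mul, le_div_iff₀ (mul_pos hp0 hp0)]
    nlinarith
  have h2 : n * (9 / η ^ 2 + 1) / (1 / (4 * q)) ^ 2 = n * (9 / η ^ 2 + 1) * (16 * q ^ 2) := by
    field_simp
    ring
  rw [h2]
  gcongr

end Vale.Agent.P057
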