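import Mathlib

/-! From a convex block in a finite abelian group to a set of integers without 4-term progressions. -/

open Finset

namespace Vale.Agent.P057

theorem glue {G : Type} [AddCommGroup G] [Fintype G] [DecidableEq G] (T Sm : Finset G) (f : G → ℝ)
    (K w : ℝ) (hw : 0 < w) (hK : ∀ x ∈ T, 0 ≤ f x ∧ f x ≤ K)
    (H : ∀ x d, x ∈ T → x + d ∈ T → x + 2 • d ∈ T → x + 3 • d ∈ T →
      0 ≤ f x + f (x + 3 • d) - f (x + d) - f (x + 2 • d) ∧
        (2 • d ∉ Sm → 2 * w ≤ f x + f (x + 3 • d) - f (x + d) - f (x + 2 • d)))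
    (N n : ℕ) (inj : ∀ d ∈ Icc 1 N, Function.Injective fun x : G => (2 * d) • x)
    (hS : N * Sm.card ^ n < Fintype.card G ^ n) (hK0 : 0 ≤ K) :
    ∃ A ⊆ Icc 1 N, (∀ a d : ℕ, 0 < d → ¬(a ∈ A ∧ a + d ∈ A ∧ a + 2 * d ∈ A ∧ a + 3 * d ∈ A)) ∧
      N * ((T.card : ℝ) / Fintype.card G) ^ n / (n * K / w + 1) ≤ A.card := by
  obtain ⟨θ, hθ⟩ : ∃ θ : Fin n → G, ∀ d ∈ Icc 1 N, ∃ i, (2 * d) • θ i ∉ Sm := by
    by_contra hc
    push Not at hc
    have h1 : (univ : Finset (Fin n → G)) ⊆ (Icc 1 N).biUnion fun d =>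
        univ.filter fun θ => ∀ i, (2 * d) • θ i ∈ Sm := fun θ _ => by
      obtain ⟨d, h, h'⟩ := hc θ
      exact mem_biUnion.2 ⟨d, h, mem_filter.2 ⟨mem_univ _, h'⟩⟩
    have h2 := (card_le_card h1).trans (card_biUnion_le_card_mul _ _ (Sm.card ^ n) fun d hd => by
      have := card_le_card_of_injOn (s := univ.filter fun θ : Fin n → G => ∀ i, (2 * d) • θ i ∈ Sm)
        (t := Fintype.piFinset fun _ : Fin n => Sm) (fun θ i => (2 * d) • θ i)
        (fun θ h => Fintype.mem_piFinset.2 (mem_filter.1 h).2)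
        fun θ _ θ' _ h => funext fun i => inj d hd (congrFun h i)
      simpa using this)
    simp at h2
    omega
  let F : (Fin n → G) → ℝ := fun x => ∑ i, f (x i)
  let S := Fintype.piFinset fun _ : Fin n => T
  let m := ⌊n * K / w⌋₊ + 1
  have hm : (0 : ℝ) < m := by positivity
  obtain ⟨j, -, hj⟩ := exists_le_card_fiber_of_nsmul_le_card_of_maps_to (s := S) (t := range m)
    (f := fun x => ⌊F x / w⌋₊) (b := (S.card : ℝ) / m) (fun x hx => by
      refine mem_range.2 (Nat.lt_succ_of_le (Nat.floor_le_floor (div_le_div_of_nonneg_right ?_ hw.le)))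
      simpa using sum_le_card_nsmul univ (fun i => f (x i)) K
        fun i _ => (hK _ (Fintype.mem_piFinset.1 hx i)).2) (by simp [m])
    (by simp [mul_div_cancel₀ _ hm.ne'])
  set Sj := S.filter fun x => ⌊F x / w⌋₊ = j with hSj
  have hG : (0 : ℝ) < Fintype.card G := by exact_mod_cast Fintype.card_pos
  have h1 : ∑ β : Fin n → G, (((Icc 1 N).filter fun a => a • θ + β ∈ Sj).card : ℝ) =
      ∑ _β : Fin n → G, N * (Sj.card : ℝ) / Fintype.card G ^ n := by
    simp only [card_filter, Nat.cast_sum]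
    rw [sum_comm]
    have h2 : ∀ a : ℕ, ∑ β : Fin n → G, (((if a • θ + β ∈ Sj then 1 else 0 : ℕ)) : ℝ) = Sj.card :=
      fun a => by
        refine (Equiv.sum_comp (Equiv.addLeft (a • θ))
          fun x => (((if x ∈ Sj then 1 else 0 : ℕ)) : ℝ)).trans ?_
        simp
    simp only [h2]
    simp
    field_simp
  obtain ⟨β, -, hβ⟩ := exists_le_of_sum_le univ_nonempty h1.ge
  refine ⟨(Icc 1 N).filter fun a => a • θ + β ∈ Sj, filter_subset _ _, ?_, ?_⟩
  · rintro a d hd ⟨a0, a1, a2, a3⟩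
    obtain ⟨i, hi⟩ := hθ d (by
      have := mem_Icc.1 (mem_filter.1 a1).1
      exact mem_Icc.2 ⟨hd, by omega⟩)
    have e1 : (a + d) • θ + β = a • θ + β + d • θ := by rw [add_smul]; abel
    have e2 : (a + 2 * d) • θ + β = a • θ + β + 2 • d • θ := by rw [add_smul, mul_smul]; abel
    have e3 : (a + 3 * d) • θ + β = a • θ + β + 3 • d • θ := by rw [add_smul, mul_smul]; abel
    have k : ∀ x ∈ Sj, (∀ i, x i ∈ T) ∧ j * w ≤ F x ∧ F x < (j + 1) * w := fun x hx => by
      obtain ⟨k1, k2⟩ := mem_filter.1 hx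
      have k3 := Fintype.mem_piFinset.1 k1
      have k4 : 0 ≤ F x / w := div_nonneg (sum_nonneg fun i _ => (hK _ (k3 i)).1) hw.le
      obtain ⟨k5, k6⟩ := (Nat.floor_eq_iff k4).1 k2
      exact ⟨k3, (le_div_iff₀ hw).1 k5, (div_lt_iff₀ hw).1 k6⟩
    obtain ⟨b0, -, c0⟩ := k _ (mem_filter.1 a0).2
    obtain ⟨b1, c1, -⟩ := k _ (mem_filter.1 a1).2
    obtain ⟨b2, c2, -⟩ := k _ (mem_filter.1 a2).2
    obtain ⟨b3, -, c3⟩ := k _ (mem_filter.1 a3).2
    rw [e1] at b1 c1
    rw [e2] at b2 c2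
    rw [e3] at b3 c3
    have h3 := fun i => H _ ((d • θ) i) (b0 i) (b1 i) (b2 i) (b3 i)
    have h4 := ((h3 i).2 (by rwa [Pi.smul_apply, ← mul_smul])).trans
      (single_le_sum (fun i _ => (h3 i).1) (mem_univ i))
    simp only [sum_sub_distrib, sum_add_distrib] at h4
    have h5 : 2 * w ≤ F (a • θ + β) + F (a • θ + β + 3 • d • θ) - F (a • θ + β + d • θ) -
      F (a • θ + β + 2 • d • θ) := h4
    linarith
  · refine le_trans ?_ hβ
    have h2 : (m : ℝ) ≤ n * K / w + 1 := by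
      have := Nat.floor_le (a := n * K / w) (by positivity)
      simp only [m]
      push_cast
      linarith
    have h3 : (S.card : ℝ) = T.card ^ n := by simp [S]
    rw [h3] at hj
    calc N * ((T.card : ℝ) / Fintype.card G) ^ n / (n * K / w + 1)
        ≤ N * ((T.card : ℝ) / Fintype.card G) ^ n / m := by gcongr
      _ = N * ((T.card : ℝ) ^ n / m) / Fintype.card G ^ n := by rw [div_pow]; ring
      _ ≤ _ := by gcongr

end Vale.Agent.P057
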